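import Mathlib

/-!
# Row 218 (helper65): equivariant general position
-/

set_option autoImplicit false

open Set Topology Filter Module

noncomputable section

namespace Crest.Agent.N218.Gp

variable {X W : Type*} [TopologicalSpace X] [NormedAddCommGroup W]

/-- near `x`, maps to `W` can be pushed off `0` -/
def Dm (W : Type*) [NormedAddCommGroup W] (x : X) : Prop :=
  ∀ N ∈ 𝓝 x, ∃ B ∈ 𝓝 x, B ⊆ N ∧ ∀ f : X → W, ContinuousOn f B → ∀ ε > 0,
    ∃ g : X → W, ContinuousOn g B ∧ ∀ y ∈ B, g y ≠ 0 ∧ ‖g y - f y‖ ≤ ε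

variable [NormedSpace ℝ W]

theorem dm_fin {E : Type*} [NormedAddCommGroup E] [NormedSpace ℝ E] [FiniteDimensional ℝ E]
    [FiniteDimensional ℝ W] (h : finrank ℝ E < finrank ℝ W) (x : E) : Dm W x := fun N hN => by
  obtain ⟨B, hB, c, s⟩ := exists_mem_nhds_isClosed_subset hN
  refine ⟨B, hB, s, fun f hf ε hε => ?_⟩
  have := TietzeExtension.of_tvs ℝ (E := W)
  obtain ⟨F, hF⟩ := ContinuousMap.exists_restrict_eq c ⟨B.domRestrict f, hf.domRestrict⟩
  obtain ⟨p, p1, p2, -⟩ := F.continuous.exists_contDiff_approx 1 (ε := fun _ => ε / 2)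
    continuous_const fun _ => half_pos hε
  obtain ⟨w, w1, w2⟩ := (ContDiff.dense_compl_range_of_finrank_lt_finrank p1 h).exists_mem_open
    Metric.isOpen_ball (Metric.nonempty_ball.2 (half_pos hε) : (Metric.ball (0 : W) _).Nonempty)
  refine ⟨fun y => p y - w, (p1.continuous.sub continuous_const).continuousOn, fun y hy =>
    ⟨fun e => w1 ⟨y, sub_eq_zero.1 e⟩, ?_⟩⟩
  have e : F y = f y := congrArg (fun u : C(B, W) => u ⟨y, hy⟩) hF
  have a := p2 y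
  rw [dist_eq_norm, e] at a
  rw [sub_right_comm]
  exact (norm_sub_le _ _).trans (by linarith [mem_ball_zero_iff.1 w2])

omit [NormedSpace ℝ W] in
/-- transport along a chart -/
theorem Dm.chart {Y : Type*} [TopologicalSpace Y] (e : OpenPartialHomeomorph X Y) {x : X}
    (hx : x ∈ e.source) (h : Dm W (e x)) : Dm W x := fun N hN => by
  obtain ⟨B, hB, s, k⟩ := h (e.target ∩ e.symm ⁻¹' N) (inter_mem (e.open_target.mem_nhds (e.map_source hx))
    ((e.continuousAt_symm (e.map_source hx)).preimage_mem_nhds (by rwa [e.left_inv hx])))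
  refine ⟨e.source ∩ e ⁻¹' B, inter_mem (e.open_source.mem_nhds hx)
    ((e.continuousAt hx).preimage_mem_nhds hB), fun y hy => ?_, fun f hf ε hε => ?_⟩
  · simpa [e.left_inv hy.1] using (s hy.2).2
  · obtain ⟨g, g1, g2⟩ := k (f ∘ e.symm) (hf.comp (e.continuousOn_symm.mono fun y hy => (s hy).1)
      fun y hy => ⟨e.map_target (s hy).1, by simpa [e.right_inv (s hy).1] using hy⟩) ε hε
    refine ⟨g ∘ e, g1.comp (e.continuousOn.mono inter_subset_left) fun y hy => hy.2, fun y hy => ?_⟩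
    simpa [e.left_inv hy.1] using g2 _ hy.2

theorem dm_charted (E : Type*) [NormedAddCommGroup E] [NormedSpace ℝ E] [FiniteDimensional ℝ E]
    [FiniteDimensional ℝ W] [ChartedSpace E X] (h : finrank ℝ E < finrank ℝ W) (x : X) : Dm W x :=
  (dm_fin h _).chart (chartAt E x) (mem_chart_source E x)

variable {G : Type*} [Group G] [Fintype G] [MulAction G X] [ContinuousConstSMul G X]
  (ρ : G →* (W →L[ℝ] W))

omit [Fintype G] in
theorem rho_ne (g : G) {w : W} (h : w ≠ 0) : ρ g w ≠ 0 := fun e => h (by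
  have : ρ g⁻¹ (ρ g w) = w := by
    change (ρ g⁻¹ * ρ g) w = w
    rw [← map_mul]; simp
  rw [← this, e, map_zero])

/-- one step -/
theorem step {Om D K B : Set X} {s : X → W} (hs : ContinuousOn s Om)
    (he : ∀ g, ∀ x ∈ Om, s (g • x) = ρ g (s x)) (hD : IsCompact D) (DO : D ⊆ Om)
    (h0 : ∀ x ∈ D, s x ≠ 0) (BO : B ⊆ Om) (hB : ∀ g : G, g ≠ 1 → ∀ x ∈ B, g • x ∉ B)
    (hp : ∀ f : X → W, ContinuousOn f B → ∀ ε > 0,
      ∃ g : X → W, ContinuousOn g B ∧ ∀ y ∈ B, g y ≠ 0 ∧ ‖g y - f y‖ ≤ ε)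
    (φ : C(X, ℝ)) (φ1 : EqOn φ 1 K) (φ2 : tsupport φ ⊆ interior B) (φ3 : ∀ x, φ x ∈ Icc (0 : ℝ) 1)
    {ε : ℝ} (hε : 0 < ε) : ∃ s' : X → W, ContinuousOn s' Om ∧
      (∀ g, ∀ x ∈ Om, s' (g • x) = ρ g (s' x)) ∧ (∀ x ∈ D ∪ K, s' x ≠ 0) ∧
      (∀ x, (∀ g : G, g • x ∉ tsupport φ) → s' x = s x) ∧ ∀ x, ‖s' x - s x‖ ≤ ε := by
  classical
  obtain ⟨m, m0, hm⟩ : ∃ m > 0, ∀ x ∈ D, m ≤ ‖s x‖ := by
    rcases D.eq_empty_or_nonempty with rfl | ne
    · exact ⟨1, one_pos, by simp⟩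
    · obtain ⟨x, hx, k⟩ := hD.exists_isMinOn ne (hs.mono DO).norm
      exact ⟨_, norm_pos_iff.2 (h0 x hx), fun y hy => k hy⟩
  obtain ⟨c, hc⟩ : ∃ c, c = ∑ g, ‖ρ g‖ + 1 := ⟨_, rfl⟩
  have c0 : 0 < c := by rw [hc]; positivity
  have d0 : 0 < min ε (m / 2) := by positivity
  obtain ⟨p, p1, p2⟩ := hp s (hs.mono BO) (min ε (m / 2) / c) (by positivity)
  let u : X → W := fun y => φ y • (p y - s y)
  have u0 : ∀ y, y ∉ tsupport φ → u y = 0 := fun y hy => by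
    simp [u, image_eq_zero_of_notMem_tsupport hy]
  have uc : Continuous u :=
    (φ.continuous.continuousOn.smul ((p1.sub (hs.mono BO)).mono interior_subset)
      ).continuous_of_tsupport_subset isOpen_interior ((tsupport_smul_subset_left _ _).trans φ2)
  have ub : ∀ y, ‖u y‖ ≤ min ε (m / 2) / c := fun y => by
    by_cases hy : y ∈ tsupport φ
    · rw [norm_smul, Real.norm_of_nonneg (φ3 y).1]
      exact (mul_le_of_le_one_left (norm_nonneg _) (φ3 y).2).trans (p2 y (interior_subset (φ2 hy))).2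
    · rw [u0 y hy, norm_zero]; positivity
  have sb : ∀ x, ‖∑ g : G, ρ g (u (g⁻¹ • x))‖ ≤ min ε (m / 2) := fun x => by
    refine (norm_sum_le_of_le _ fun g _ => ((ρ g).le_opNorm _).trans
      (mul_le_mul_of_nonneg_left (ub _) (norm_nonneg _))).trans ?_
    rw [← Finset.sum_mul, mul_div_assoc', div_le_iff₀ c0, mul_comm]
    exact mul_le_mul_of_nonneg_left (by linarith) d0.le
  refine ⟨fun x => s x + ∑ g : G, ρ g (u (g⁻¹ • x)), hs.add (Continuous.continuousOn ?_),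
    fun h x hx => ?_, fun x hx => ?_, fun x hx => ?_, fun x => ?_⟩
  · exact continuous_finsetSum _ fun g _ => (ρ g).continuous.comp (uc.comp (continuous_const_smul _))
  · simp only [he h x hx, map_add, map_sum]
    congr 1
    rw [← Equiv.sum_comp (Equiv.mulLeft h)]
    simp [mul_smul]
  · rcases hx with hx | hx
    · intro e
      have a := sb x
      rw [eq_neg_of_add_eq_zero_right e, norm_neg] at a
      linarith [hm x hx, min_le_right ε (m / 2)]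
    · have b : x ∈ B := interior_subset (φ2 (subset_tsupport _ (by simp [φ1 hx])))
      beta_reduce
      rw [Finset.sum_eq_single 1 (fun g _ hg => by
        rw [u0 _ fun k => hB _ (inv_ne_one.2 hg) x b (interior_subset (φ2 k)), map_zero]) (by simp)]
      simpa [u, φ1 hx] using (p2 x b).1
  · simp [u0 _ (hx _)]
  · simpa using (sb x).trans (min_le_left _ _)

/-- **equivariant general position** -/
theorem gp [T2Space X] [LocallyCompactSpace X] {Om N : Set X} (hO : IsOpen Om)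
    (hi : ∀ g : G, ∀ x ∈ Om, g • x ∈ Om) {s : X → W} (hs : ContinuousOn s Om)
    (he : ∀ g, ∀ x ∈ Om, s (g • x) = ρ g (s x)) (hZ : IsCompact {x ∈ Om | s x = 0}) (hN : IsOpen N)
    (ZN : ∀ x ∈ Om, s x = 0 → x ∈ N) (hf : ∀ x ∈ Om, s x = 0 → ∀ g : G, g • x = x → g = 1)
    (hd : ∀ x ∈ Om, s x = 0 → Dm W x) {ε : ℝ} (hε : 0 < ε) :
    ∃ (s' : X → W) (C : Set X), IsCompact C ∧ C ⊆ Om ∩ N ∧ (∀ g : G, ∀ x ∈ C, g • x ∈ C) ∧
      ContinuousOn s' Om ∧ (∀ g, ∀ x ∈ Om, s' (g • x) = ρ g (s' x)) ∧ (∀ x ∈ Om, s' x ≠ 0) ∧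
      (∀ x, x ∉ C → s' x = s x) ∧ ∀ x, ‖s' x - s x‖ ≤ ε := by
  classical
  have loc : ∀ x : {x ∈ Om | s x = 0}, ∃ (K B : Set X) (φ : C(X, ℝ)), K ∈ 𝓝 x.1 ∧ IsCompact K ∧
      (∀ g : G, ∀ y ∈ B, g • y ∈ Om ∩ N) ∧ (∀ g : G, g ≠ 1 → ∀ x ∈ B, g • x ∉ B) ∧
      (∀ f : X → W, ContinuousOn f B → ∀ ε > 0,
        ∃ g : X → W, ContinuousOn g B ∧ ∀ y ∈ B, g y ≠ 0 ∧ ‖g y - f y‖ ≤ ε) ∧ EqOn φ 1 K ∧
      IsCompact (tsupport φ) ∧ tsupport φ ⊆ interior B ∧ ∀ x, φ x ∈ Icc (0 : ℝ) 1 := by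
    rintro ⟨x, xO, x0⟩
    have a : ∀ g : G, ∃ U ∈ 𝓝 x, (∀ y ∈ U, g • y ∈ Om ∩ N) ∧ (g ≠ 1 → ∀ y ∈ U, g • y ∉ U) := fun g => by
      have b : (g • ·) ⁻¹' (Om ∩ N) ∈ 𝓝 x := (continuous_const_smul g).continuousAt.preimage_mem_nhds
        ((hO.inter hN).mem_nhds ⟨hi g x xO, ZN _ (hi g x xO) (by rw [he g x xO, x0, map_zero])⟩)
      by_cases hg : g = 1
      · exact ⟨_, b, fun y hy => hy, fun k => (k hg).elim⟩
      · obtain ⟨U, V, hU, hV, d⟩ := t2_separation_nhds (show g • x ≠ x from fun e => hg (hf x xO x0 g e))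
        exact ⟨_, inter_mem b (inter_mem hV ((continuous_const_smul g).continuousAt.preimage_mem_nhds hU)),
          fun y hy => hy.1, fun _ y hy k => disjoint_left.1 d hy.2.2 k.2.1⟩
    choose U U1 U2 U3 using a
    obtain ⟨B, B1, B2, B3⟩ := hd x xO x0 _ (iInter_mem.2 U1)
    obtain ⟨K, K1, K2, K3⟩ := local_compact_nhds (interior_mem_nhds.2 B1)
    obtain ⟨φ, φ1, φ2, φ3, φ4⟩ := exists_continuousMap_one_of_isCompact_subset_isOpen K3
      isOpen_interior K2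
    exact ⟨K, B, φ, K1, K3, fun g y hy => U2 g y (mem_iInter.1 (B2 hy) g),
      fun g hg y hy k => U3 g hg y (mem_iInter.1 (B2 hy) g) (mem_iInter.1 (B2 k) g), B3, φ1, φ2, φ3, φ4⟩
  choose K B φ K1 K2 B1 B2 B3 φ1 φ2 φ3 φ4 using loc
  obtain ⟨t, ht⟩ := hZ.elim_finite_subcover (fun x => interior (K x)) (fun _ => isOpen_interior)
    fun x hx => mem_iUnion.2 ⟨⟨x, hx⟩, mem_interior_iff_mem_nhds.2 (K1 ⟨x, hx⟩)⟩
  let C : Set X := ⋃ x ∈ t, ⋃ g : G, (g • ·) '' tsupport (φ x)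
  have Cc : IsCompact C := t.isCompact_biUnion fun x _ =>
    isCompact_iUnion fun g => (φ2 x).image (continuous_const_smul g)
  have CO : C ⊆ Om ∩ N := iUnion₂_subset fun x _ => iUnion_subset fun g => by
    rintro _ ⟨y, hy, rfl⟩
    exact B1 x g y (interior_subset (φ3 x hy))
  have Cm : ∀ x ∈ t, ∀ (g : G) y, g • y ∈ tsupport (φ x) → y ∈ C := fun x hx g y hy =>
    mem_iUnion₂.2 ⟨x, hx, mem_iUnion.2 ⟨g⁻¹, _, hy, inv_smul_smul g y⟩⟩
  let D : Set X := C \ ⋃ x ∈ t, interior (K x)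
  have Dc : IsCompact D := Cc.diff (isOpen_biUnion fun _ _ => isOpen_interior)
  have KO : ∀ x, K x ⊆ tsupport (φ x) := fun x y hy => subset_tsupport _ (by simp [φ1 x hy])
  have BO : ∀ x, B x ⊆ Om := fun x y hy => by simpa using (B1 x 1 y hy).1
  have key : ∀ r ⊆ t, ∀ ε > 0, ∃ s' : X → W, ContinuousOn s' Om ∧
      (∀ g, ∀ x ∈ Om, s' (g • x) = ρ g (s' x)) ∧ (∀ x ∈ D ∪ ⋃ y ∈ r, K y, s' x ≠ 0) ∧
      (∀ x, x ∉ C → s' x = s x) ∧ ∀ x, ‖s' x - s x‖ ≤ ε := fun r => by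
    induction r using Finset.induction_on with
    | empty =>
      exact fun _ ε hε => ⟨s, hs, he, fun x hx e => by
        have hx : x ∈ D := by simpa using hx
        exact hx.2 (ht ⟨(CO hx.1).1, e⟩), fun _ _ => rfl, fun x => by simpa using hε.le⟩
    | insert z r _ ih =>
      intro h ε hε
      obtain ⟨a, a1, a2, a3, a4, a5⟩ := ih ((Finset.subset_insert _ _).trans h) _ (half_pos hε)
      obtain ⟨b, b1, b2, b3, b4, b5⟩ := step ρ a1 a2 (Dc.union (r.isCompact_biUnion fun y _ => K2 y))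
        (union_subset (fun x hx => (CO hx.1).1) (iUnion₂_subset fun y _ =>
          (KO y).trans ((φ3 y).trans (interior_subset.trans (BO y))))) a3 (BO z) (B2 z) (B3 z) (φ z)
        (φ1 z) (φ3 z) (φ4 z) (half_pos hε)
      refine ⟨b, b1, b2, fun x hx => b3 x ?_, fun x hx => (b4 x fun g k =>
        hx (Cm z (h (Finset.mem_insert_self _ _)) g x k)).trans (a4 x hx), fun x => ?_⟩
      · rw [Finset.set_biUnion_insert] at hx
        rcases hx with hx | hx | hx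
        exacts [.inl (.inl hx), .inr hx, .inl (.inr hx)]
      · exact (norm_sub_le_norm_sub_add_norm_sub _ (a x) _).trans (by linarith [a5 x, b5 x])
  obtain ⟨a, a1, a2, a3, a4, a5⟩ := key t subset_rfl ε hε
  refine ⟨a, C, Cc, CO, fun g x hx => ?_, a1, a2, fun x hx => ?_, a4, a5⟩
  · obtain ⟨y, hy, k⟩ := mem_iUnion₂.1 hx
    obtain ⟨h, z, hz, rfl⟩ := mem_iUnion.1 k
    exact mem_iUnion₂.2 ⟨y, hy, mem_iUnion.2 ⟨g * h, z, hz, mul_smul g h z⟩⟩
  · by_cases c : x ∈ ⋃ y ∈ t, interior (K y)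
    · exact a3 x (.inr (iUnion₂_mono (fun _ _ => interior_subset) c))
    · by_cases d : x ∈ C
      · exact a3 x (.inl ⟨d, c⟩)
      · rw [a4 x d]
        exact fun e => c (ht ⟨hx, e⟩)

/-- the same for an action given as a function on a finite-dimensional space -/
theorem gp' {G E : Type*} [Group G] [Fintype G] [NormedAddCommGroup E] [NormedSpace ℝ E]
    [FiniteDimensional ℝ E] [FiniteDimensional ℝ W] (hd : finrank ℝ E < finrank ℝ W)
    (a : G →* (E →L[ℝ] E)) (ρ : G →* (W →L[ℝ] W)) {Om N : Set E} (hO : IsOpen Om)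
    (hi : ∀ g, ∀ x ∈ Om, a g x ∈ Om) {s : E → W} (hs : ContinuousOn s Om)
    (he : ∀ g, ∀ x ∈ Om, s (a g x) = ρ g (s x)) (hZ : IsCompact {x ∈ Om | s x = 0}) (hN : IsOpen N)
    (ZN : ∀ x ∈ Om, s x = 0 → x ∈ N) (hf : ∀ x ∈ Om, s x = 0 → ∀ g, a g x = x → g = 1)
    {ε : ℝ} (hε : 0 < ε) :
    ∃ (s' : E → W) (C : Set E), IsCompact C ∧ C ⊆ Om ∩ N ∧ (∀ g, ∀ x ∈ C, a g x ∈ C) ∧
      ContinuousOn s' Om ∧ (∀ g, ∀ x ∈ Om, s' (a g x) = ρ g (s' x)) ∧ (∀ x ∈ Om, s' x ≠ 0) ∧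
      (∀ x, x ∉ C → s' x = s x) ∧ ∀ x, ‖s' x - s x‖ ≤ ε := by
  let : MulAction G E :=
    { smul := fun g x => a g x
      one_smul := fun x => show a 1 x = x by simp
      mul_smul := fun g h x => show a (g * h) x = a g (a h x) by simp }
  have : ContinuousConstSMul G E := ⟨fun g => (a g).continuous⟩
  have := FiniteDimensional.proper_real E
  exact gp ρ hO hi hs he hZ hN ZN hf (fun x _ _ => dm_fin hd x) hε

end Crest.Agent.N218.Gp
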